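import Crest.Agent.R278.Defs

set_option autoImplicit false

namespace Crest.Agent.R278

/-- Operations over which all certificate computations are written once. `mp`, `mg`, `mu` are the
multiplications by `p`, by `g` and by a fixed scalar `1/Q`. -/
structure Ops (α : Type) where
  add : α → α → α
  mul : α → α → α
  neg : α → α
  cst : ℕ → α
  mp : α → α
  mg : α → α
  mu : α → α

/-- A relation preserved by all operations. -/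
structure Hom {α β : Type} (o : Ops α) (o' : Ops β) (R : α → β → Prop) : Prop where
  add : ∀ {a b : α} {a' b' : β}, R a a' → R b b' → R (o.add a b) (o'.add a' b')
  mul : ∀ {a b : α} {a' b' : β}, R a a' → R b b' → R (o.mul a b) (o'.mul a' b')
  neg : ∀ {a : α} {a' : β}, R a a' → R (o.neg a) (o'.neg a')
  cst : ∀ c : ℕ, R (o.cst c) (o'.cst c)
  mp : ∀ {a : α} {a' : β}, R a a' → R (o.mp a) (o'.mp a')
  mg : ∀ {a : α} {a' : β}, R a a' → R (o.mg a) (o'.mg a')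
  mu : ∀ {a : α} {a' : β}, R a a' → R (o.mu a) (o'.mu a')

/-- The operations of a commutative ring with three chosen elements. -/
def oR {A : Type} [CommRing A] (p g u : A) : Ops A :=
  ⟨fun a b => a + b, fun a b => a * b, fun a => -a, fun c => (c : A), fun a => p * a,
    fun a => g * a, fun a => u * a⟩

/-- The operations of `ℂ[p,g]`. -/
noncomputable def oP (Q : ℕ) : Ops PP :=
  oR (MvPolynomial.X 0) (MvPolynomial.X 1) (MvPolynomial.C ((Q : ℂ)⁻¹))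

@[ext] structure V6 (α : Type) where
  (c0 c1 c2 c3 c4 c5 : α)

@[ext] structure V5 (α : Type) where
  (v1 v2 v3 v4 v5 : α)

@[ext] structure S10 (α : Type) where
  (m12 m13 m14 m15 m23 m24 m25 m34 m35 m45 : α)

@[ext] structure N8 (α : Type) where
  (n1 n2 n3 n4 n5 n6 n7 n8 : α)

def V6.get {α : Type} (a : V6 α) : Fin 6 → α := ![a.c0, a.c1, a.c2, a.c3, a.c4, a.c5]

def N8.map {α β : Type} (f : α → β) (n : N8 α) : N8 β :=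
  ⟨f n.n1, f n.n2, f n.n3, f n.n4, f n.n5, f n.n6, f n.n7, f n.n8⟩

section generic

variable {α : Type} (o : Ops α)

/-- The five Pfaffians of a skew `5 × 5` matrix. -/
def pf (m : S10 α) : V5 α :=
  ⟨o.add (o.add (o.mul m.m23 m.m45) (o.neg (o.mul m.m24 m.m35))) (o.mul m.m25 m.m34),
   o.add (o.add (o.mul m.m13 m.m45) (o.neg (o.mul m.m14 m.m35))) (o.mul m.m15 m.m34),
   o.add (o.add (o.mul m.m12 m.m45) (o.neg (o.mul m.m14 m.m25))) (o.mul m.m15 m.m24),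
   o.add (o.add (o.mul m.m12 m.m35) (o.neg (o.mul m.m13 m.m25))) (o.mul m.m15 m.m23),
   o.add (o.add (o.mul m.m12 m.m34) (o.neg (o.mul m.m13 m.m24))) (o.mul m.m14 m.m23)⟩

/-- Their derivative at `m` in the direction `e`. -/
def dpf (m e : S10 α) : V5 α :=
  ⟨o.add (o.add (o.add (o.add (o.add (o.mul e.m23 m.m45) (o.mul e.m45 m.m23)) (o.neg (o.mul e.m24 m.m35))) (o.neg (o.mul e.m35 m.m24))) (o.mul e.m25 m.m34)) (o.mul e.m34 m.m25),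
   o.add (o.add (o.add (o.add (o.add (o.mul e.m13 m.m45) (o.mul e.m45 m.m13)) (o.neg (o.mul e.m14 m.m35))) (o.neg (o.mul e.m35 m.m14))) (o.mul e.m15 m.m34)) (o.mul e.m34 m.m15),
   o.add (o.add (o.add (o.add (o.add (o.mul e.m12 m.m45) (o.mul e.m45 m.m12)) (o.neg (o.mul e.m14 m.m25))) (o.neg (o.mul e.m25 m.m14))) (o.mul e.m15 m.m24)) (o.mul e.m24 m.m15),
   o.add (o.add (o.add (o.add (o.add (o.mul e.m12 m.m35) (o.mul e.m35 m.m12)) (o.neg (o.mul e.m13 m.m25))) (o.neg (o.mul e.m25 m.m13))) (o.mul e.m15 m.m23)) (o.mul e.m23 m.m15),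
   o.add (o.add (o.add (o.add (o.add (o.mul e.m12 m.m34) (o.mul e.m34 m.m12)) (o.neg (o.mul e.m13 m.m24))) (o.neg (o.mul e.m24 m.m13))) (o.mul e.m14 m.m23)) (o.mul e.m23 m.m14)⟩

/-- The matrix applied to `(v1, -v2, v3, -v4, v5)`. -/
def mv (m : S10 α) (v : V5 α) : V5 α :=
  ⟨o.add (o.add (o.add (o.neg (o.mul m.m12 v.v2)) (o.mul m.m13 v.v3)) (o.neg (o.mul m.m14 v.v4))) (o.mul m.m15 v.v5),
   o.add (o.add (o.add (o.neg (o.mul m.m12 v.v1)) (o.mul m.m23 v.v3)) (o.neg (o.mul m.m24 v.v4))) (o.mul m.m25 v.v5),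
   o.add (o.add (o.add (o.neg (o.mul m.m13 v.v1)) (o.mul m.m23 v.v2)) (o.neg (o.mul m.m34 v.v4))) (o.mul m.m35 v.v5),
   o.add (o.add (o.add (o.neg (o.mul m.m14 v.v1)) (o.mul m.m24 v.v2)) (o.neg (o.mul m.m34 v.v3))) (o.mul m.m45 v.v5),
   o.add (o.add (o.add (o.neg (o.mul m.m15 v.v1)) (o.mul m.m25 v.v2)) (o.neg (o.mul m.m35 v.v3))) (o.mul m.m45 v.v4)⟩

/-- `K M + M Kᵀ`. -/
def km (k : V5 (V5 α)) (m : S10 α) : S10 α :=
  ⟨o.add (o.add (o.add (o.add (o.add (o.add (o.add (o.mul k.v1.v1 m.m12) (o.neg (o.mul k.v1.v3 m.m23))) (o.neg (o.mul k.v1.v4 m.m24))) (o.neg (o.mul k.v1.v5 m.m25))) (o.mul k.v2.v2 m.m12)) (o.mul k.v2.v3 m.m13)) (o.mul k.v2.v4 m.m14)) (o.mul k.v2.v5 m.m15),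
   o.add (o.add (o.add (o.add (o.add (o.add (o.add (o.mul k.v1.v1 m.m13) (o.mul k.v1.v2 m.m23)) (o.neg (o.mul k.v1.v4 m.m34))) (o.neg (o.mul k.v1.v5 m.m35))) (o.mul k.v3.v2 m.m12)) (o.mul k.v3.v3 m.m13)) (o.mul k.v3.v4 m.m14)) (o.mul k.v3.v5 m.m15),
   o.add (o.add (o.add (o.add (o.add (o.add (o.add (o.mul k.v1.v1 m.m14) (o.mul k.v1.v2 m.m24)) (o.mul k.v1.v3 m.m34)) (o.neg (o.mul k.v1.v5 m.m45))) (o.mul k.v4.v2 m.m12)) (o.mul k.v4.v3 m.m13)) (o.mul k.v4.v4 m.m14)) (o.mul k.v4.v5 m.m15),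
   o.add (o.add (o.add (o.add (o.add (o.add (o.add (o.mul k.v1.v1 m.m15) (o.mul k.v1.v2 m.m25)) (o.mul k.v1.v3 m.m35)) (o.mul k.v1.v4 m.m45)) (o.mul k.v5.v2 m.m12)) (o.mul k.v5.v3 m.m13)) (o.mul k.v5.v4 m.m14)) (o.mul k.v5.v5 m.m15),
   o.add (o.add (o.add (o.add (o.add (o.add (o.add (o.mul k.v2.v1 m.m13) (o.mul k.v2.v2 m.m23)) (o.neg (o.mul k.v2.v4 m.m34))) (o.neg (o.mul k.v2.v5 m.m35))) (o.neg (o.mul k.v3.v1 m.m12))) (o.mul k.v3.v3 m.m23)) (o.mul k.v3.v4 m.m24)) (o.mul k.v3.v5 m.m25),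
   o.add (o.add (o.add (o.add (o.add (o.add (o.add (o.mul k.v2.v1 m.m14) (o.mul k.v2.v2 m.m24)) (o.mul k.v2.v3 m.m34)) (o.neg (o.mul k.v2.v5 m.m45))) (o.neg (o.mul k.v4.v1 m.m12))) (o.mul k.v4.v3 m.m23)) (o.mul k.v4.v4 m.m24)) (o.mul k.v4.v5 m.m25),
   o.add (o.add (o.add (o.add (o.add (o.add (o.add (o.mul k.v2.v1 m.m15) (o.mul k.v2.v2 m.m25)) (o.mul k.v2.v3 m.m35)) (o.mul k.v2.v4 m.m45)) (o.neg (o.mul k.v5.v1 m.m12))) (o.mul k.v5.v3 m.m23)) (o.mul k.v5.v4 m.m24)) (o.mul k.v5.v5 m.m25),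
   o.add (o.add (o.add (o.add (o.add (o.add (o.add (o.mul k.v3.v1 m.m14) (o.mul k.v3.v2 m.m24)) (o.mul k.v3.v3 m.m34)) (o.neg (o.mul k.v3.v5 m.m45))) (o.neg (o.mul k.v4.v1 m.m13))) (o.neg (o.mul k.v4.v2 m.m23))) (o.mul k.v4.v4 m.m34)) (o.mul k.v4.v5 m.m35),
   o.add (o.add (o.add (o.add (o.add (o.add (o.add (o.mul k.v3.v1 m.m15) (o.mul k.v3.v2 m.m25)) (o.mul k.v3.v3 m.m35)) (o.mul k.v3.v4 m.m45)) (o.neg (o.mul k.v5.v1 m.m13))) (o.neg (o.mul k.v5.v2 m.m23))) (o.mul k.v5.v4 m.m34)) (o.mul k.v5.v5 m.m35),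
   o.add (o.add (o.add (o.add (o.add (o.add (o.add (o.mul k.v4.v1 m.m15) (o.mul k.v4.v2 m.m25)) (o.mul k.v4.v3 m.m35)) (o.mul k.v4.v4 m.m45)) (o.neg (o.mul k.v5.v1 m.m14))) (o.neg (o.mul k.v5.v2 m.m24))) (o.neg (o.mul k.v5.v3 m.m34))) (o.mul k.v5.v5 m.m45)⟩

/-- `∑ δ_v G_v`. -/
def comb (G : V5 (S10 α)) (d : V5 α) : S10 α :=
  ⟨o.add (o.add (o.add (o.add (o.mul G.v1.m12 d.v1) (o.mul G.v2.m12 d.v2)) (o.mul G.v3.m12 d.v3)) (o.mul G.v4.m12 d.v4)) (o.mul G.v5.m12 d.v5),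
   o.add (o.add (o.add (o.add (o.mul G.v1.m13 d.v1) (o.mul G.v2.m13 d.v2)) (o.mul G.v3.m13 d.v3)) (o.mul G.v4.m13 d.v4)) (o.mul G.v5.m13 d.v5),
   o.add (o.add (o.add (o.add (o.mul G.v1.m14 d.v1) (o.mul G.v2.m14 d.v2)) (o.mul G.v3.m14 d.v3)) (o.mul G.v4.m14 d.v4)) (o.mul G.v5.m14 d.v5),
   o.add (o.add (o.add (o.add (o.mul G.v1.m15 d.v1) (o.mul G.v2.m15 d.v2)) (o.mul G.v3.m15 d.v3)) (o.mul G.v4.m15 d.v4)) (o.mul G.v5.m15 d.v5),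
   o.add (o.add (o.add (o.add (o.mul G.v1.m23 d.v1) (o.mul G.v2.m23 d.v2)) (o.mul G.v3.m23 d.v3)) (o.mul G.v4.m23 d.v4)) (o.mul G.v5.m23 d.v5),
   o.add (o.add (o.add (o.add (o.mul G.v1.m24 d.v1) (o.mul G.v2.m24 d.v2)) (o.mul G.v3.m24 d.v3)) (o.mul G.v4.m24 d.v4)) (o.mul G.v5.m24 d.v5),
   o.add (o.add (o.add (o.add (o.mul G.v1.m25 d.v1) (o.mul G.v2.m25 d.v2)) (o.mul G.v3.m25 d.v3)) (o.mul G.v4.m25 d.v4)) (o.mul G.v5.m25 d.v5),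
   o.add (o.add (o.add (o.add (o.mul G.v1.m34 d.v1) (o.mul G.v2.m34 d.v2)) (o.mul G.v3.m34 d.v3)) (o.mul G.v4.m34 d.v4)) (o.mul G.v5.m34 d.v5),
   o.add (o.add (o.add (o.add (o.mul G.v1.m35 d.v1) (o.mul G.v2.m35 d.v2)) (o.mul G.v3.m35 d.v3)) (o.mul G.v4.m35 d.v4)) (o.mul G.v5.m35 d.v5),
   o.add (o.add (o.add (o.add (o.mul G.v1.m45 d.v1) (o.mul G.v2.m45 d.v2)) (o.mul G.v3.m45 d.v3)) (o.mul G.v4.m45 d.v4)) (o.mul G.v5.m45 d.v5)⟩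

def ssub (a b : S10 α) : S10 α :=
  ⟨o.add a.m12 (o.neg b.m12),
   o.add a.m13 (o.neg b.m13),
   o.add a.m14 (o.neg b.m14),
   o.add a.m15 (o.neg b.m15),
   o.add a.m23 (o.neg b.m23),
   o.add a.m24 (o.neg b.m24),
   o.add a.m25 (o.neg b.m25),
   o.add a.m34 (o.neg b.m34),
   o.add a.m35 (o.neg b.m35),
   o.add a.m45 (o.neg b.m45)⟩

/-- The Jacobian matrix of the Pfaffians applied to a vector. -/
def jv (m : S10 α) (G : V5 (S10 α)) (d : V5 α) : V5 α := dpf o m (comb o G d)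

def lrow (l1 l2 l4 : α) (j : V5 α) : α :=
  o.add (o.add (o.mul l1 j.v1) (o.mul l2 j.v2)) (o.mul l4 j.v4)

def min35 (a b : V5 α) : α := o.add (o.mul a.v3 b.v5) (o.neg (o.mul b.v3 a.v5))

/-- The determinant of three columns on the rows `l1 r1 + l2 r2 + l4 r4`, `r3`, `r5`. -/
def dl (l1 l2 l4 : α) (a b c : V5 α) : α :=
  o.add (o.add (o.mul (lrow o l1 l2 l4 a) (min35 o b c))
    (o.neg (o.mul (lrow o l1 l2 l4 b) (min35 o a c)))) (o.mul (lrow o l1 l2 l4 c) (min35 o a b))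

/-- The skew matrix of the family. -/
def mM (n : N8 α) (x y z : α) : S10 α :=
  ⟨n.n1, y, o.add n.n2 (o.neg x), n.n3, n.n4, x, z, o.add z n.n8,
    o.neg (o.add (o.add (o.mul x x) (o.mul n.n6 x)) n.n7), o.add y n.n5⟩

def mD (d : N8 α) (x : α) : S10 α :=
  ⟨d.n1, o.cst 0, d.n2, d.n3, d.n4, o.cst 0, o.cst 0, d.n8,
    o.neg (o.add (o.mul d.n6 x) d.n7), d.n5⟩

/-- Its partial derivatives in `p, g, x, y, z`. -/
def mG (n np ng : N8 α) (x : α) : V5 (S10 α) :=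
  ⟨mD o np x, mD o ng x,
   ⟨o.cst 0, o.cst 0, o.neg (o.cst 1), o.cst 0, o.cst 0, o.cst 1, o.cst 0, o.cst 0,
     o.neg (o.add (o.add x x) n.n6), o.cst 0⟩,
   ⟨o.cst 0, o.cst 1, o.cst 0, o.cst 0, o.cst 0, o.cst 0, o.cst 0, o.cst 0, o.cst 0, o.cst 1⟩,
   ⟨o.cst 0, o.cst 0, o.cst 0, o.cst 0, o.cst 0, o.cst 0, o.cst 1, o.cst 1, o.cst 0, o.cst 0⟩⟩

def eX : V5 α := ⟨o.cst 0, o.cst 0, o.cst 1, o.cst 0, o.cst 0⟩
def eY : V5 α := ⟨o.cst 0, o.cst 0, o.cst 0, o.cst 1, o.cst 0⟩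
def eZ : V5 α := ⟨o.cst 0, o.cst 0, o.cst 0, o.cst 0, o.cst 1⟩

/-! Coordinates in the basis `1, x, x², x³, y, z`. -/

def vadd (a b : V6 α) : V6 α :=
  ⟨o.add a.c0 b.c0, o.add a.c1 b.c1, o.add a.c2 b.c2, o.add a.c3 b.c3, o.add a.c4 b.c4,
    o.add a.c5 b.c5⟩

def vsm (c : α) (a : V6 α) : V6 α :=
  ⟨o.mul c a.c0, o.mul c a.c1, o.mul c a.c2, o.mul c a.c3, o.mul c a.c4, o.mul c a.c5⟩

def vmap (f : α → α) (a : V6 α) : V6 α := ⟨f a.c0, f a.c1, f a.c2, f a.c3, f a.c4, f a.c5⟩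

def vinj (c : α) : V6 α := ⟨c, o.cst 0, o.cst 0, o.cst 0, o.cst 0, o.cst 0⟩
def vX : V6 α := ⟨o.cst 0, o.cst 1, o.cst 0, o.cst 0, o.cst 0, o.cst 0⟩
def vY : V6 α := ⟨o.cst 0, o.cst 0, o.cst 0, o.cst 0, o.cst 1, o.cst 0⟩
def vZ : V6 α := ⟨o.cst 0, o.cst 0, o.cst 0, o.cst 0, o.cst 0, o.cst 1⟩

def tx4 (n : N8 α) : V6 α :=
  ⟨o.add (o.add (o.add (o.add (o.add (o.add (o.mul (o.mul n.n1 n.n3) n.n4) (o.mul (o.mul n.n1 n.n5) n.n8)) (o.mul (o.mul n.n2 n.n4) n.n5)) (o.neg (o.mul (o.mul n.n1 n.n1) n.n7))) (o.neg (o.mul (o.mul n.n1 n.n3) n.n5))) (o.neg (o.mul (o.mul n.n1 n.n4) n.n8))) (o.neg (o.mul (o.mul n.n2 n.n4) n.n4)),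
   o.add (o.add (o.add (o.add (o.add (o.mul n.n2 n.n7) (o.mul n.n3 n.n8)) (o.mul n.n4 n.n4)) (o.neg (o.mul (o.mul n.n1 n.n1) n.n6))) (o.neg (o.mul n.n3 n.n3))) (o.neg (o.mul n.n4 n.n5)),
   o.add (o.add (o.mul n.n2 n.n6) (o.neg (o.mul n.n1 n.n1))) (o.neg n.n7),
   o.add n.n2 (o.neg n.n6),
   o.add (o.add (o.mul n.n1 n.n8) (o.mul n.n2 n.n4)) (o.neg (o.mul n.n1 n.n3)),
   o.add (o.add (o.mul n.n1 n.n5) (o.mul n.n2 n.n3)) (o.neg (o.mul n.n1 n.n4))⟩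

def txy (n : N8 α) : V6 α :=
  ⟨o.add (o.mul n.n1 n.n8) (o.mul n.n2 n.n4),
   o.neg n.n4,
   o.cst 0,
   o.cst 0,
   o.cst 0,
   n.n1⟩

def txz (n : N8 α) : V6 α :=
  ⟨o.neg (o.mul n.n1 n.n5),
   o.neg n.n3,
   o.cst 0,
   o.cst 0,
   o.neg n.n1,
   n.n2⟩

def tyy (n : N8 α) : V6 α :=
  ⟨o.add (o.neg (o.mul n.n2 n.n7)) (o.neg (o.mul n.n3 n.n8)),
   o.add n.n7 (o.neg (o.mul n.n2 n.n6)),
   o.add n.n6 (o.neg n.n2),
   o.cst 1,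
   o.neg n.n5,
   o.neg n.n3⟩

def tyz (n : N8 α) : V6 α :=
  ⟨o.add (o.mul n.n3 n.n4) (o.neg (o.mul n.n1 n.n7)),
   o.neg (o.mul n.n1 n.n6),
   o.neg n.n1,
   o.cst 0,
   o.cst 0,
   o.cst 0⟩

def tzz (n : N8 α) : V6 α :=
  ⟨o.neg (o.mul n.n4 n.n5),
   o.neg n.n7,
   o.neg n.n6,
   o.neg (o.cst 1),
   o.neg n.n4,
   o.neg n.n8⟩

def tr (n : N8 α) : V6 α :=
  ⟨o.add (o.add (o.add (o.mul (o.mul (o.cst 2) n.n2) n.n7) (o.mul (o.mul (o.cst 2) n.n3) n.n8)) (o.neg (o.mul (o.mul n.n1 n.n1) n.n6))) (o.neg (o.mul (o.mul (o.cst 2) n.n4) n.n5)),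
   o.add (o.add (o.mul (o.mul (o.cst 3) n.n2) n.n6) (o.neg (o.mul (o.mul (o.cst 2) n.n1) n.n1))) (o.neg (o.mul (o.cst 4) n.n7)),
   o.add (o.mul (o.cst 4) n.n2) (o.neg (o.mul (o.cst 5) n.n6)),
   o.neg (o.cst 6),
   o.add n.n5 (o.neg (o.mul (o.cst 3) n.n4)),
   o.add (o.mul (o.cst 3) n.n3) (o.neg n.n8)⟩

def mulX (n : N8 α) (a : V6 α) : V6 α :=
  vadd o (vadd o ⟨o.cst 0, a.c0, a.c1, a.c2, o.cst 0, o.cst 0⟩ (vsm o a.c3 (tx4 o n)))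
    (vadd o (vsm o a.c4 (txy o n)) (vsm o a.c5 (txz o n)))

def mulY (n : N8 α) (a : V6 α) : V6 α :=
  vadd o (vadd o (vadd o ⟨o.cst 0, o.cst 0, o.cst 0, o.cst 0, a.c0, o.cst 0⟩ (vsm o a.c1 (txy o n)))
      (vadd o (vsm o a.c2 (mulX o n (txy o n))) (vsm o a.c3 (mulX o n (mulX o n (txy o n))))))
    (vadd o (vsm o a.c4 (tyy o n)) (vsm o a.c5 (tyz o n)))

def mulZ (n : N8 α) (a : V6 α) : V6 α :=
  vadd o (vadd o (vadd o ⟨o.cst 0, o.cst 0, o.cst 0, o.cst 0, o.cst 0, a.c0⟩ (vsm o a.c1 (txz o n)))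
      (vadd o (vsm o a.c2 (mulX o n (txz o n))) (vsm o a.c3 (mulX o n (mulX o n (txz o n))))))
    (vadd o (vsm o a.c4 (tyz o n)) (vsm o a.c5 (tzz o n)))

def mulA (n : N8 α) (a b : V6 α) : V6 α :=
  vadd o (vadd o (vadd o (vsm o a.c0 b) (vsm o a.c1 (mulX o n b)))
      (vadd o (vsm o a.c2 (mulX o n (mulX o n b))) (vsm o a.c3 (mulX o n (mulX o n (mulX o n b))))))
    (vadd o (vsm o a.c4 (mulY o n b)) (vsm o a.c5 (mulZ o n b)))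

/-- The operations on coordinate vectors. -/
def oA (n : N8 α) : Ops (V6 α) :=
  ⟨vadd o, mulA o n, vmap o.neg, fun c => vinj o (o.cst c), vmap o.mp, vmap o.mg, vmap o.mu⟩

/-- The coefficients of `t^0, …, t^5` in the characteristic polynomial of `x`. -/
def chi (n : N8 α) : V6 α :=
  ⟨o.add (o.add (o.add (o.add (o.add (o.add (o.mul (o.mul (o.mul (o.mul n.n1 n.n1) n.n1) n.n1) n.n7) (o.mul (o.mul (o.mul (o.mul n.n1 n.n1) n.n1) n.n5) n.n8)) (o.mul (o.mul (o.mul (o.mul n.n1 n.n1) n.n2) n.n4) n.n5)) (o.mul (o.mul (o.mul (o.mul n.n1 n.n1) n.n2) n.n8) n.n8)) (o.mul (o.mul (o.mul (o.mul (o.mul (o.cst 2) n.n1) n.n2) n.n2) n.n4) n.n8)) (o.mul (o.mul (o.mul (o.mul n.n2 n.n2) n.n2) n.n4) n.n4)) (o.neg (o.mul (o.mul (o.mul (o.mul n.n1 n.n1) n.n1) n.n3) n.n4)),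
   o.add (o.add (o.add (o.add (o.add (o.add (o.add (o.add (o.add (o.add (o.mul (o.mul (o.mul (o.mul n.n1 n.n1) n.n1) n.n1) n.n6) (o.mul (o.mul (o.mul n.n1 n.n1) n.n3) n.n8)) (o.mul (o.mul (o.mul n.n1 n.n1) n.n5) n.n5)) (o.mul (o.mul (o.mul (o.mul (o.cst 3) n.n1) n.n2) n.n3) n.n4)) (o.mul (o.mul (o.mul n.n1 n.n2) n.n5) n.n8)) (o.mul (o.mul (o.mul n.n2 n.n2) n.n4) n.n5)) (o.neg (o.mul (o.mul (o.mul (o.mul (o.cst 2) n.n1) n.n1) n.n2) n.n7))) (o.neg (o.mul (o.mul (o.mul n.n1 n.n1) n.n4) n.n5))) (o.neg (o.mul (o.mul (o.mul n.n1 n.n1) n.n8) n.n8))) (o.neg (o.mul (o.mul (o.mul (o.mul (o.cst 4) n.n1) n.n2) n.n4) n.n8))) (o.neg (o.mul (o.mul (o.mul (o.mul (o.cst 3) n.n2) n.n2) n.n4) n.n4)),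
   o.add (o.add (o.add (o.add (o.add (o.add (o.add (o.add (o.add (o.add (o.mul (o.mul (o.mul n.n1 n.n1) n.n1) n.n1) (o.mul (o.mul (o.mul (o.cst 2) n.n1) n.n1) n.n7)) (o.mul (o.mul (o.mul (o.cst 2) n.n1) n.n3) n.n5)) (o.mul (o.mul (o.mul (o.cst 2) n.n1) n.n4) n.n8)) (o.mul (o.mul n.n2 n.n2) n.n7)) (o.mul (o.mul n.n2 n.n3) n.n8)) (o.mul (o.mul (o.mul (o.cst 3) n.n2) n.n4) n.n4)) (o.neg (o.mul (o.mul (o.mul (o.mul (o.cst 2) n.n1) n.n1) n.n2) n.n6))) (o.neg (o.mul (o.mul (o.mul (o.cst 3) n.n1) n.n3) n.n4))) (o.neg (o.mul (o.mul n.n1 n.n5) n.n8))) (o.neg (o.mul (o.mul (o.mul (o.cst 2) n.n2) n.n4) n.n5)),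
   o.add (o.add (o.add (o.add (o.add (o.add (o.add (o.mul (o.mul (o.mul (o.cst 2) n.n1) n.n1) n.n6) (o.mul (o.mul n.n2 n.n2) n.n6)) (o.mul n.n3 n.n3)) (o.mul n.n4 n.n5)) (o.neg (o.mul (o.mul (o.mul (o.cst 2) n.n1) n.n1) n.n2))) (o.neg (o.mul (o.mul (o.cst 2) n.n2) n.n7))) (o.neg (o.mul n.n3 n.n8))) (o.neg (o.mul n.n4 n.n4)),
   o.add (o.add (o.add (o.mul (o.mul (o.cst 2) n.n1) n.n1) (o.mul n.n2 n.n2)) n.n7) (o.neg (o.mul (o.mul (o.cst 2) n.n2) n.n6)),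
   o.add n.n6 (o.neg (o.mul (o.cst 2) n.n2))⟩

/-- The coefficients of `χ (t + s)`. -/
def shift (c : V6 α) (s : α) : V6 α :=
  ⟨o.add c.c0 (o.mul s (o.add c.c1 (o.mul s (o.add c.c2 (o.mul s (o.add c.c3 (o.mul s (o.add c.c4 (o.mul s (o.add c.c5 (o.mul s (o.cst 1)))))))))))),
   o.add c.c1 (o.mul s (o.add (o.mul (o.cst 2) c.c2) (o.mul s (o.add (o.mul (o.cst 3) c.c3) (o.mul s (o.add (o.mul (o.cst 4) c.c4) (o.mul s (o.add (o.mul (o.cst 5) c.c5) (o.mul s (o.cst 6)))))))))),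
   o.add c.c2 (o.mul s (o.add (o.mul (o.cst 3) c.c3) (o.mul s (o.add (o.mul (o.cst 6) c.c4) (o.mul s (o.add (o.mul (o.cst 10) c.c5) (o.mul s (o.cst 15)))))))),
   o.add c.c3 (o.mul s (o.add (o.mul (o.cst 4) c.c4) (o.mul s (o.add (o.mul (o.cst 10) c.c5) (o.mul s (o.cst 20)))))),
   o.add c.c4 (o.mul s (o.add (o.mul (o.cst 5) c.c5) (o.mul s (o.cst 15)))),
   o.add c.c5 (o.mul s (o.cst 6))⟩

end generic

/-- The element with given coordinates. -/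
noncomputable def emb {A : Type} [CommRing A] [Algebra PP A] (x y z : A) (a : V6 PP) : A :=
  algebraMap PP A a.c0 + algebraMap PP A a.c1 * x + algebraMap PP A a.c2 * x ^ 2 +
    algebraMap PP A a.c3 * x ^ 3 + algebraMap PP A a.c4 * y + algebraMap PP A a.c5 * z

/-- The ring operations of a `ℂ[p,g]`-algebra. -/
noncomputable def oAlg (A : Type) [CommRing A] [Algebra PP A] (Q : ℕ) : Ops A :=
  oR (algebraMap PP A (MvPolynomial.X 0)) (algebraMap PP A (MvPolynomial.X 1))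
    (algebraMap PP A (MvPolynomial.C ((Q : ℂ)⁻¹)))

def V5.zero (A : Type) [Zero A] : V5 A := ⟨0, 0, 0, 0, 0⟩

/-- The relations of the family. -/
noncomputable def rels (n : N8 PP) : V5 (MvPolynomial (Fin 3) PP) :=
  pf (oR 0 0 0) (mM (oR 0 0 0) (n.map MvPolynomial.C) (MvPolynomial.X 0) (MvPolynomial.X 1)
    (MvPolynomial.X 2))

noncomputable def relI (n : N8 PP) : Ideal (MvPolynomial (Fin 3) PP) :=
  Ideal.span {(rels n).v1, (rels n).v2, (rels n).v3, (rels n).v4, (rels n).v5}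

/-- The surface. -/
abbrev Alg (n : N8 PP) : Type := MvPolynomial (Fin 3) PP ⧸ relI n

noncomputable def aX (n : N8 PP) : Alg n := Ideal.Quotient.mk _ (MvPolynomial.X 0)
noncomputable def aY (n : N8 PP) : Alg n := Ideal.Quotient.mk _ (MvPolynomial.X 1)
noncomputable def aZ (n : N8 PP) : Alg n := Ideal.Quotient.mk _ (MvPolynomial.X 2)

/-- Substitution of powers of one variable for `p` and `g`. -/
noncomputable def arc (a b : ℕ) : PP →ₐ[ℂ] Polynomial ℂ :=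
  MvPolynomial.aeval ![Polynomial.X ^ a, Polynomial.X ^ b]

/-- The ideal of weight at least `t`, where `p` has weight one and `g` has weight three. -/
noncomputable def Wt (t : ℕ) : Ideal PP :=
  Ideal.span {f | ∃ i j : ℕ, t ≤ i + 3 * j ∧ f = MvPolynomial.X 0 ^ i * MvPolynomial.X 1 ^ j}

/-- The exponent of `p ^ i * g ^ j`. -/
noncomputable def ex (i j : ℕ) : Fin 2 →₀ ℕ := Finsupp.single 0 i + Finsupp.single 1 j

end Crest.Agent.R278
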